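import Vale.Agent.P309C9.Main

/-!
# P309: the cycling learner; the success probability is the measure of a union of caps
-/

namespace Vale.Agent.N309

open MeasureTheory ProbabilityTheory P309 Vale.Agent.P309B7 Vale.Agent.P309C9 Filter Topology
open scoped ENNReal RealInnerProductSpace

universe u

/-- A walk on a cycle which moves on when it is kicked ends in the set of states that are never
kicked, if all other states are kicked infinitely often. -/
theorem walk_good {n : ℕ} (q : ℕ → Fin (n + 1)) (K : Fin (n + 1) → ℕ → Prop)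
    (h1 : ∀ t, K (q t) t → q (t + 1) = q t + 1) (h2 : ∀ t, ¬ K (q t) t → q (t + 1) = q t)
    (G : Set (Fin (n + 1))) (hG : G.Nonempty) (h3 : ∀ i, i ∉ G → ∀ t₀, ∃ t, t₀ ≤ t ∧ K i t) :
    ∃ t, q t ∈ G := by
  classical
  by_contra hc
  push Not at hc
  have h4 : ∀ t₀, ∃ t, q t = q t₀ + 1 := by
    intro t₀
    have hex := h3 (q t₀) (hc t₀) t₀
    have h5 : ∀ k, t₀ + k ≤ Nat.find hex → q (t₀ + k) = q t₀ := by
      intro k
      induction k with
      | zero => intro _; rfl
      | succ k ih =>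
        intro hk
        have h6 := ih (by omega)
        have h7 := Nat.find_min hex (m := t₀ + k) (by omega)
        rw [← add_assoc, h2 _ (by rw [h6]; exact fun h => h7 ⟨by omega, h⟩), h6]
    obtain ⟨h6, h7⟩ := Nat.find_spec hex
    obtain ⟨k, hk⟩ := Nat.exists_eq_add_of_le h6
    have h8 := h5 k hk.ge
    rw [← hk] at h8
    exact ⟨Nat.find hex + 1, by rw [h1 _ (by rw [h8]; exact h7), h8]⟩
  have h5 : ∀ k, ∃ t, q t = Fin.ofNat (n + 1) ((q 0).val + k) := by
    intro k
    induction k with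
    | zero => exact ⟨0, by ext; simp⟩
    | succ k ih =>
      obtain ⟨t, ht⟩ := ih
      obtain ⟨t', ht'⟩ := h4 t
      refine ⟨t', ?_⟩
      rw [ht', ht]
      ext
      simp [Fin.val_add, add_assoc]
  obtain ⟨g, hg⟩ := hG
  obtain ⟨t, ht⟩ := h5 (g.val + n * (q 0).val)
  apply hc t
  have : q t = g := by
    rw [ht]
    ext
    have : (q 0).val + (g.val + n * (q 0).val) = g.val + (n + 1) * (q 0).val := by ring
    simp only [Fin.ofNat, this, Nat.add_mul_mod_self_left]
    exact Nat.mod_eq_of_lt g.2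
  rw [this]
  exact hg

theorem gauss_pos {d : ℕ} {K : Set (Eu d)} (hK : IsOpen K) (hne : K.Nonempty) :
    stdGaussian (Eu d) K ≠ 0 := by
  have h1 : (gaussianReal 0 1).IsOpenPosMeasure :=
    (gaussianReal_absolutelyContinuous' 0 one_ne_zero).isOpenPosMeasure
  have hc : Continuous (WithLp.toLp 2 : (Fin d → ℝ) → Eu d) := PiLp.continuous_toLp 2 _
  rw [← map_pi_eq_stdGaussian, Measure.map_apply hc.measurable hK.measurableSet]
  refine (hK.preimage hc).measure_ne_zero _ ?_
  obtain ⟨x, hx⟩ := hne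
  exact ⟨x.ofLp, hx⟩

/-- independent rows hit a set of positive probability infinitely often -/
theorem ae_often {α : Type*} [MeasurableSpace α] (μ : Measure α) [IsProbabilityMeasure μ]
    {K : Set α} (hK : MeasurableSet K) (h0 : μ K ≠ 0) :
    ∀ᵐ x ∂(Measure.infinitePi fun _ : ℕ => μ), ∀ t₀, ∃ t, t₀ ≤ t ∧ x t ∈ K := by
  rw [ae_all_iff]
  intro t₀
  rw [ae_iff]
  have h1 : μ Kᶜ < 1 := by
    rw [prob_compl_eq_one_sub hK]
    exact ENNReal.sub_lt_self ENNReal.one_ne_top one_ne_zero h0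
  refine le_antisymm (ge_of_tendsto' (ENNReal.tendsto_pow_atTop_nhds_zero_of_lt_one h1)
    fun k => ?_) zero_le
  have h2 := Measure.infinitePi_pi (μ := fun _ : ℕ => μ) (s := Finset.Ico t₀ (t₀ + k))
    (t := fun _ => Kᶜ) fun _ _ => hK.compl
  rw [Finset.prod_const, Nat.card_Ico, Nat.add_sub_cancel_left] at h2
  rw [← h2]
  refine measure_mono fun x hx => ?_
  simp only [Set.mem_ofPred_eq, not_exists, not_and] at hx
  intro t ht
  exact hx t (Finset.mem_Ico.1 ht).1

variable {d : ℕ}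

/-- caps are traces of balls -/
theorem cap_iff {ε : ℝ} (h0 : 0 ≤ ε) (z s : P309B7.Sph d) :
    Real.arccos ⟪(z : Eu d), (s : Eu d)⟫ ≤ ε ↔
      ‖(s : Eu d) - z‖ ≤ √(2 - 2 * Real.cos (min ε Real.pi)) := by
  have h1 : ‖(s : Eu d) - z‖ ^ 2 = 2 - 2 * ⟪(z : Eu d), (s : Eu d)⟫ := by
    rw [norm_sub_sq_real, nrm, nrm, real_inner_comm]
    ring
  have h2 : |⟪(z : Eu d), (s : Eu d)⟫| ≤ 1 := by
    have := abs_real_inner_le_norm (z : Eu d) (s : Eu d)
    rwa [nrm, nrm, mul_one] at this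
  rw [Real.le_sqrt (norm_nonneg _) (by linarith [Real.cos_le_one (min ε Real.pi)]), h1]
  have h3 : 0 ≤ min ε Real.pi := le_min h0 Real.pi_pos.le
  have h4 : Real.arccos ⟪(z : Eu d), (s : Eu d)⟫ ≤ ε ↔
      Real.arccos ⟪(z : Eu d), (s : Eu d)⟫ ≤ min ε Real.pi := by
    rw [le_min_iff]
    exact ⟨fun h => ⟨h, Real.arccos_le_pi _⟩, fun h => h.1⟩
  rw [h4]
  constructor
  · intro h
    have := Real.cos_le_cos_of_nonneg_of_le_pi (Real.arccos_nonneg _) (min_le_right _ _) h
    rw [Real.cos_arccos (abs_le.1 h2).1 (abs_le.1 h2).2] at this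
    linarith
  · intro h
    have h5 : Real.cos (min ε Real.pi) ≤ ⟪(z : Eu d), (s : Eu d)⟫ := by linarith
    have := Real.arccos_le_arccos h5
    rwa [Real.arccos_cos h3 (min_le_right _ _)] at this

/-- The cycling learner: it leaves the state `q` when the pair read excludes the ball of radius `ρ`
around `c q`. -/
noncomputable def cyc {n : ℕ} (R : Type u) [MeasurableSpace R] (c : Fin (n + 1) → P309B7.Sph d)
    (ρ : ℝ) : Rule d (n + 1) R where
  init := fun _ => 0
  step := fun _ p => (false, if ρ * ‖p.2.2.1‖ < |p.2.2.2 - ⟪p.2.2.1, (c p.2.1 : Eu d)⟫|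
    then p.2.1 + 1 else p.2.1)
  out := fun _ p => c p.2
  meas_init := measurable_const
  meas_step := fun _ => by
    have hc : Measurable fun q => (c q : Eu d) := measurable_of_countable _
    have hs : Measurable fun q : Fin (n + 1) => q + 1 := measurable_of_countable _
    refine measurable_const.prodMk (Measurable.ite ?_ (hs.comp measurable_snd.fst)
      measurable_snd.fst)
    exact measurableSet_lt (measurable_snd.snd.fst.norm.const_mul ρ)
      (measurable_snd.snd.snd.sub (measurable_snd.snd.fst.inner (hc.comp measurable_snd.fst))).abs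
  meas_out := fun _ => (measurable_of_countable c).comp measurable_snd

section cyc

variable {n : ℕ} {R : Type u} [MeasurableSpace R] (c : Fin (n + 1) → P309B7.Sph d) (ρ : ℝ)

theorem cyc_flag (s : P309B7.Sph d) (x : ℕ → Eu d) (r : ℕ → R) (t : ℕ) :
    ((cyc R c ρ).run s x r t).1.1 = false := by
  induction t with
  | zero => rfl
  | succ t ih => simp only [Rule.run, ih]; rfl

theorem cyc_step (s : P309B7.Sph d) (x : ℕ → Eu d) (r : ℕ → R) (t : ℕ) :
    ((cyc R c ρ).run s x r (t + 1)).1.2 =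
      if ρ * ‖x t‖ < |⟪x t, (s : Eu d) - c ((cyc R c ρ).run s x r t).1.2⟫|
      then ((cyc R c ρ).run s x r t).1.2 + 1 else ((cyc R c ρ).run s x r t).1.2 := by
  rw [inner_sub_right]
  simp only [Rule.run, cyc_flag]
  rfl

theorem cyc_stay (s : P309B7.Sph d) (x : ℕ → Eu d) (r : ℕ → R) (t : ℕ)
    (h : ‖(s : Eu d) - c ((cyc R c ρ).run s x r t).1.2‖ ≤ ρ) :
    ((cyc R c ρ).run s x r (t + 1)).1.2 = ((cyc R c ρ).run s x r t).1.2 := by
  rw [cyc_step, if_neg]
  rw [not_lt, mul_comm]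
  exact (abs_real_inner_le_norm _ _).trans (mul_le_mul_of_nonneg_left h (norm_nonneg _))

theorem cyc_ae (s : P309B7.Sph d) (r : ℕ → R) (hρ : 0 ≤ ρ)
    (h : ∃ i, ‖(s : Eu d) - c i‖ ≤ ρ) :
    ∀ᵐ x ∂(Measure.infinitePi fun _ : ℕ => stdGaussian (Eu d)),
      ∃ t, ‖(s : Eu d) - c ((cyc R c ρ).run s x r t).1.2‖ ≤ ρ := by
  have h1 : ∀ i : Fin (n + 1), ∀ᵐ x ∂(Measure.infinitePi fun _ : ℕ => stdGaussian (Eu d)),
      ¬ ‖(s : Eu d) - c i‖ ≤ ρ → ∀ t₀, ∃ t, t₀ ≤ t ∧ ρ * ‖x t‖ < |⟪x t, (s : Eu d) - c i⟫| := by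
    intro i
    by_cases hi : ‖(s : Eu d) - c i‖ ≤ ρ
    · exact Eventually.of_forall fun x hx => absurd hi hx
    · have hK : IsOpen {y : Eu d | ρ * ‖y‖ < |⟪y, (s : Eu d) - c i⟫|} :=
        isOpen_lt (by fun_prop) (by fun_prop)
      have hne : {y : Eu d | ρ * ‖y‖ < |⟪y, (s : Eu d) - c i⟫|}.Nonempty := by
        refine ⟨(s : Eu d) - c i, ?_⟩
        rw [not_le] at hi
        simp only [Set.mem_ofPred_eq, real_inner_self_eq_norm_sq]
        rw [abs_of_nonneg (sq_nonneg _), sq]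
        exact mul_lt_mul_of_pos_right hi (hρ.trans_lt hi)
      filter_upwards [ae_often _ hK.measurableSet (gauss_pos hK hne)] with x hx _
      exact hx
  rw [← ae_all_iff] at h1
  filter_upwards [h1] with x hx
  refine walk_good (fun t => ((cyc R c ρ).run s x r t).1.2)
    (fun i t => ρ * ‖x t‖ < |⟪x t, (s : Eu d) - c i⟫|) (fun t ht => ?_) (fun t ht => ?_)
    {i | ‖(s : Eu d) - c i‖ ≤ ρ} h hx
  · rw [cyc_step, if_pos ht]
  · rw [cyc_step, if_neg ht]

end cyc

theorem meas_cover {N : ℕ} (c : Fin N → P309B7.Sph d) (ε : ℝ) :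
    MeasurableSet {s : P309B7.Sph d | ∃ i, Real.arccos ⟪(c i : Eu d), (s : Eu d)⟫ ≤ ε} := by
  rw [Set.ofPred_exists]
  exact MeasurableSet.iUnion fun i => measurable_prodMk_left (x := c i) (meas_good ε)

/-- the success probability of the cycling learner tends to the measure of the union of caps -/
theorem cyc_fixed {n : ℕ} {R : Type u} [MeasurableSpace R] (hd : 1 ≤ d)
    (c : Fin (n + 1) → P309B7.Sph d) {ε : ℝ} (h0 : 0 ≤ ε) (r : ℕ → R) :
    Tendsto (fun T => fixed (cyc R c √(2 - 2 * Real.cos (min ε Real.pi))) T ε r) atTop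
      (𝓝 (unifSphere (Eu d)
        {s | ∃ i, Real.arccos ⟪(c i : Eu d), (s : Eu d)⟫ ≤ ε})) := by
  have := Upper.isProb_unifSphere hd
  set ρ := √(2 - 2 * Real.cos (min ε Real.pi)) with hρ
  let A : ℕ → Set (P309B7.Sph d × (ℕ → Eu d)) := fun T =>
    {p | Real.arccos ⟪((cyc R c ρ).estimate T p.1 p.2 r : Eu d), (p.1 : Eu d)⟫ ≤ ε}
  have hA : ∀ T, MeasurableSet (A T) := fun T => measurable_prodMk_right (meas_ev _ T ε)
  have hA' : ∀ T p, p ∈ A T ↔ ‖(p.1 : Eu d) - c ((cyc R c ρ).run p.1 p.2 r T).1.2‖ ≤ ρ :=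
    fun T p => cap_iff h0 _ _
  have hmono : Monotone A := by
    refine monotone_nat_of_le_succ fun T p hp => ?_
    rw [hA'] at hp ⊢
    rw [cyc_stay c ρ _ _ _ _ hp]
    exact hp
  have h1 := tendsto_measure_iUnion_atTop (μ := (unifSphere (Eu d)).prod
    (Measure.infinitePi fun _ : ℕ => stdGaussian (Eu d))) hmono
  have h2 : (unifSphere (Eu d)).prod (Measure.infinitePi fun _ : ℕ => stdGaussian (Eu d))
      (⋃ T, A T) = unifSphere (Eu d) {s | ∃ i, Real.arccos ⟪(c i : Eu d), (s : Eu d)⟫ ≤ ε} := by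
    rw [Measure.prod_apply (MeasurableSet.iUnion hA), ← lintegral_indicator_one (meas_cover c ε)]
    refine lintegral_congr fun s => ?_
    by_cases hs : ∃ i, Real.arccos ⟪(c i : Eu d), (s : Eu d)⟫ ≤ ε
    · rw [Set.indicator_of_mem (by exact hs), Pi.one_apply,
        ← mem_ae_iff_prob_eq_one (measurable_prodMk_left (MeasurableSet.iUnion hA))]
      obtain ⟨i, hi⟩ := hs
      filter_upwards [cyc_ae c ρ s r (Real.sqrt_nonneg _) ⟨i, (cap_iff h0 _ _).1 hi⟩] with x hx
      obtain ⟨t, ht⟩ := hx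
      exact Set.mem_iUnion.2 ⟨t, (hA' t (s, x)).2 ht⟩
    · rw [Set.indicator_of_notMem (by exact hs)]
      convert measure_empty (μ := Measure.infinitePi fun _ : ℕ => stdGaussian (Eu d))
      refine Set.eq_empty_of_forall_notMem fun x hx => hs ?_
      obtain ⟨t, ht⟩ := Set.mem_iUnion.1 hx
      exact ⟨_, ht⟩
  rw [h2] at h1
  exact h1

end Vale.Agent.N309
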