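import Vale.Agent.P309B7.Defs

/-! # P309: unions of caps, Euclidean error -/

namespace Vale.Agent.N309

open MeasureTheory Vale.Agent.P309B7
open scoped ENNReal RealInnerProductSpace

universe u

/-- The uniform measure of the union of the caps of angular radius `ε` with the centres `z i`. -/
noncomputable def cover {d N : ℕ} (z : Fin N → Sph d) (ε : ℝ) : ℝ≥0∞ :=
  P309.unifSphere (Eu d) {s | ∃ i, Real.arccos ⟪(z i : Eu d), (s : Eu d)⟫ ≤ ε}

/-- The probability that the output is within Euclidean distance `ε` of the signal. -/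
noncomputable def successE {d N : ℕ} {R Ω : Type u} [MeasurableSpace R] [MeasurableSpace Ω]
    (L : Rule d N R) (T : ℕ) (ε : ℝ) (P : Measure Ω) (S : Ω → Sph d) (X : ℕ → Ω → Eu d)
    (U : ℕ → Ω → R) : ℝ≥0∞ :=
  P {ω | ‖(L.estimate T (S ω) (fun t => X t ω) (fun t => U t ω) : Eu d) - S ω‖ ≤ ε}

end Vale.Agent.N309
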