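import Vale.Agent.N309.Thr

/-!
# P309: one bit suffices for a finite horizon when the output may depend on the stopping index
-/

namespace Vale.Agent.N309

open MeasureTheory ProbabilityTheory P309 Vale.Agent.P309B7 Vale.Agent.P309C9 Filter Topology
open scoped ENNReal RealInnerProductSpace

universe u

variable {d : ℕ}

theorem exists_net (e : P309B7.Sph d) (hd : 1 ≤ d) {n : ℕ} (hn : 1 ≤ n) :
    ∃ z : ℕ → P309B7.Sph d, ∀ s : P309B7.Sph d, ∃ b < (2 * n + 1) ^ d,
      ‖(s : Eu d) - z b‖ ≤ 2 * d / n := by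
  classical
  have hn0 : (0 : ℝ) < n := by exact_mod_cast hn
  have hd1 : (1 : ℝ) ≤ d := by exact_mod_cast hd
  let p : (Fin d → Fin (2 * n + 1)) → Eu d := fun g => WithLp.toLp 2 fun i => ((g i : ℕ) : ℝ) / n - 1
  have h1 : ∀ s : P309B7.Sph d, ∃ g, ‖(s : Eu d) - p g‖ ≤ d / n := by
    intro s
    have h2 : ∀ i, |(s : Eu d) i| ≤ 1 := fun i => by
      have := PiLp.norm_apply_le (s : Eu d) i
      rwa [nrm, Real.norm_eq_abs] at this
    have h3 : ∀ i, ⌊((s : Eu d) i + 1) * n⌋₊ < 2 * n + 1 := fun i => by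
      rw [Nat.lt_succ_iff]
      refine Nat.floor_le_of_le ?_
      push_cast
      nlinarith [(abs_le.1 (h2 i)).2]
    refine ⟨fun i => ⟨_, h3 i⟩, ?_⟩
    rw [EuclideanSpace.norm_eq]
    refine Real.sqrt_le_iff.2 ⟨by positivity, ?_⟩
    have h4 : ∀ i, ‖((s : Eu d) - p fun i => ⟨_, h3 i⟩) i‖ ^ 2 ≤ (1 / n) ^ 2 := fun i => by
      have h5 : 0 ≤ ((s : Eu d) i + 1) * n := mul_nonneg (by linarith [(abs_le.1 (h2 i)).1]) hn0.le
      have h6 := Nat.floor_le h5
      have h7 := Nat.lt_floor_add_one (((s : Eu d) i + 1) * n)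
      rw [Real.norm_eq_abs, sq_le_sq, abs_abs, abs_of_pos (by positivity : (0 : ℝ) < 1 / n)]
      have h8 : ((s : Eu d) - p fun i => ⟨_, h3 i⟩) i =
          (((s : Eu d) i + 1) * n - ⌊((s : Eu d) i + 1) * n⌋₊) / n := by
        simp only [p, PiLp.sub_apply]
        field_simp
        ring
      rw [h8, abs_of_nonneg (div_nonneg (by linarith) hn0.le)]
      gcongr
      linarith
    refine (Finset.sum_le_sum fun i _ => h4 i).trans ?_
    rw [Finset.sum_const, Finset.card_univ, Fintype.card_fin, nsmul_eq_mul, div_pow, div_pow,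
      mul_div_assoc']
    gcongr
    nlinarith
  have h2 : ∀ g, ∃ z : P309B7.Sph d, (∃ s : P309B7.Sph d, ‖(s : Eu d) - p g‖ ≤ d / n) →
      ‖(z : Eu d) - p g‖ ≤ d / n := by
    intro g
    by_cases h : ∃ s : P309B7.Sph d, ‖(s : Eu d) - p g‖ ≤ d / n
    · obtain ⟨s, hs⟩ := h
      exact ⟨s, fun _ => hs⟩
    · exact ⟨e, fun h' => absurd h' h⟩
  choose z hz using h2
  refine ⟨fun b => if h : b < (2 * n + 1) ^ d then z (finFunctionFinEquiv.symm ⟨b, h⟩) else e,
    fun s => ?_⟩
  obtain ⟨g, hg⟩ := h1 s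
  refine ⟨finFunctionFinEquiv g, (finFunctionFinEquiv g).2, ?_⟩
  simp only [dif_pos (finFunctionFinEquiv g).2, Fin.eta, Equiv.symm_apply_apply]
  have h3 := hz g ⟨s, hg⟩
  have h4 := norm_sub_le_norm_sub_add_norm_sub (s : Eu d) (p g) (z g)
  rw [norm_sub_rev (p g)] at h4
  rw [mul_div_assoc]
  linarith

theorem slab_le {u : Eu d} (hu : ‖u‖ = 1) (a : ℝ) :
    stdGaussian (Eu d) {y | |⟪y, u⟫| ≤ a} ≤ ENNReal.ofReal (2 * a) := by
  have h1 := IsGaussian.map_eq_gaussianReal (μ := stdGaussian (Eu d)) (innerSL ℝ u)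
  rw [integral_strongDual_stdGaussian, variance_dual_stdGaussian, innerSL_apply_norm, hu] at h1
  have h2 : {y : Eu d | |⟪y, u⟫| ≤ a} = (innerSL ℝ u) ⁻¹' Set.Icc (-a) a := by
    ext y
    simp [abs_le, real_inner_comm]
  rw [h2, ← Measure.map_apply (innerSL ℝ u).continuous.measurable measurableSet_Icc, h1,
    gaussianReal_apply _ (by simp)]
  have h3 : ∀ x, gaussianPDF 0 (Real.toNNReal (1 ^ 2)) x ≤ 1 := by
    intro x
    rw [gaussianPDF, ENNReal.ofReal_le_one, gaussianPDFReal]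
    have h4 : 1 ≤ √(2 * Real.pi * (Real.toNNReal (1 ^ 2) : NNReal)) := by
      rw [Real.one_le_sqrt]
      simp
      linarith [Real.pi_gt_three]
    refine mul_le_one₀ (inv_le_one_of_one_le₀ h4) (Real.exp_nonneg _) ?_
    rw [Real.exp_le_one_iff]
    exact div_nonpos_of_nonpos_of_nonneg (neg_nonpos.2 (sq_nonneg _)) (by positivity)
  refine (setLIntegral_mono measurable_const fun x _ => h3 x).trans ?_
  rw [setLIntegral_const, one_mul, Real.volume_Icc]
  exact le_of_eq (by congr 1; ring)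

theorem cone_le : ∃ A : ℝ, 0 ≤ A ∧ ∀ (v : Eu d) (ρ δ L : ℝ), 0 < ρ → ρ ≤ ‖v‖ → 0 ≤ δ → 0 < L →
    stdGaussian (Eu d) {y | |⟪y, v⟫| ≤ δ * ‖y‖} ≤ ENNReal.ofReal (2 * (δ * L / ρ) + A / L) := by
  have hi : Integrable (fun y : Eu d => ‖y‖) (stdGaussian (Eu d)) :=
    (IsGaussian.integrable_id (μ := stdGaussian (Eu d))).norm
  refine ⟨∫ y, ‖y‖ ∂stdGaussian (Eu d), integral_nonneg fun y => norm_nonneg y,
    fun v ρ δ L hρ hv hδ hL => ?_⟩
  have hv0 : 0 < ‖v‖ := hρ.trans_le hv
  have h1 : {y : Eu d | |⟪y, v⟫| ≤ δ * ‖y‖} ⊆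
      {y | |⟪y, ‖v‖⁻¹ • v⟫| ≤ δ * L / ρ} ∪ {y | L ≤ ‖y‖} := by
    intro y hy
    by_cases h : L ≤ ‖y‖
    · exact Or.inr h
    · left
      simp only [Set.mem_ofPred_eq] at hy ⊢
      rw [real_inner_smul_right, abs_mul, abs_of_pos (inv_pos.2 hv0), inv_mul_eq_div]
      have h2 : δ * ‖y‖ ≤ δ * L := mul_le_mul_of_nonneg_left (not_le.1 h).le hδ
      gcongr
      exact hy.trans h2
  refine (measure_mono h1).trans ((measure_union_le _ _).trans ?_)
  have hA : 0 ≤ ∫ y, ‖y‖ ∂stdGaussian (Eu d) := integral_nonneg fun y => norm_nonneg y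
  have h3 : 0 ≤ 2 * (δ * L / ρ) := by positivity
  rw [ENNReal.ofReal_add h3 (div_nonneg hA hL.le)]
  have hu : ‖‖v‖⁻¹ • v‖ = 1 := by
    rw [norm_smul, norm_inv, norm_norm]
    exact inv_mul_cancel₀ hv0.ne'
  refine add_le_add (slab_le hu (δ * L / ρ)) ?_
  have h2 := mul_meas_ge_le_integral_of_nonneg (μ := stdGaussian (Eu d))
    (Eventually.of_forall fun y : Eu d => norm_nonneg y) hi L
  rw [← ofReal_measureReal (measure_ne_top _ _)]
  refine ENNReal.ofReal_le_ofReal ?_
  rw [le_div_iff₀ hL, mul_comm]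
  exact h2

/-- The block learner: in the block `b` of `k` indices it tests the point `z b`. -/
noncomputable def blk (R : Type u) [MeasurableSpace R] (z : ℕ → P309B7.Sph d) (δ : ℝ) (k : ℕ) :
    Rule d 2 R where
  init := fun _ => 0
  step := fun t p => if (t % k = 0 ∨ p.2.1 = 1) ∧
      |p.2.2.2 - ⟪p.2.2.1, (z (t / k) : Eu d)⟫| ≤ δ * ‖p.2.2.1‖
    then (decide (t % k + 1 = k), 1) else (false, 0)
  out := fun t _ => z ((t - 1) / k)
  meas_init := measurable_const
  meas_step := fun t => by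
    refine Measurable.ite (MeasurableSet.inter ?_ ?_) measurable_const measurable_const
    · exact measurable_snd.fst (MeasurableSet.of_discrete (s := {q : Fin 2 | t % k = 0 ∨ q = 1}))
    · exact measurableSet_le (measurable_snd.snd.snd.sub
        (measurable_snd.snd.fst.inner measurable_const)).abs
        (measurable_snd.snd.fst.norm.const_mul δ)
  meas_out := fun _ => measurable_const

section blk

variable {R : Type u} [MeasurableSpace R] (z : ℕ → P309B7.Sph d) (δ : ℝ) (k : ℕ)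
  (s : P309B7.Sph d) (x : ℕ → Eu d) (r : ℕ → R)

theorem run_stop {N : ℕ} (L : Rule d N R) {t : ℕ} (h : (L.run s x r t).1.1 = true) :
    L.run s x r (t + 1) = L.run s x r t := by
  simp only [Rule.run, h, if_true]

theorem blk_go {t : ℕ} (h : ((blk R z δ k).run s x r t).1.1 = false) :
    (blk R z δ k).run s x r (t + 1) =
      (if (t % k = 0 ∨ ((blk R z δ k).run s x r t).1.2 = 1) ∧
        |⟪x t, (s : Eu d) - z (t / k)⟫| ≤ δ * ‖x t‖
      then (decide (t % k + 1 = k), 1) else (false, 0), t + 1) := by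
  rw [inner_sub_right]
  simp only [Rule.run, h]
  rfl

theorem blk_key (t : ℕ) : ((blk R z δ k).run s x r t).1.1 = false →
    ((blk R z δ k).run s x r (t + 1)).1.2 = 1 →
    ∀ i ≤ t % k, |⟪x (k * (t / k) + i), (s : Eu d) - z (t / k)⟫| ≤ δ * ‖x (k * (t / k) + i)‖ := by
  induction t with
  | zero =>
    intro h1 h2 i hi
    rw [blk_go z δ k s x r h1] at h2
    split_ifs at h2 with h3
    · have h4 : i = 0 := by simpa using hi
      subst h4
      simpa using h3.2
    · simp at h2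
  | succ t ih =>
    intro h1 h2 i hi
    rw [blk_go z δ k s x r h1] at h2
    split_ifs at h2 with h3
    · have h4 := Nat.div_add_mod (t + 1) k
      rcases hi.eq_or_lt with h5 | h5
      · rw [h5, h4]
        exact h3.2
      · have h6 : ((blk R z δ k).run s x r t).1.1 = false := by
          by_contra h7
          rw [run_stop s x r _ (by simpa using h7)] at h1
          exact h7 h1
        have h7 : (t + 1) / k = t / k :=
          Nat.succ_div_of_not_dvd fun h => by rw [Nat.mod_eq_zero_of_dvd h] at h5; omega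
        have h8 := Nat.div_add_mod t k
        rw [h7] at h4 ⊢
        exact ih h6 (h3.1.resolve_left (by omega)) i (by omega)
    · simp at h2

theorem blk_sound (t : ℕ) : ((blk R z δ k).run s x r t).1.1 = true →
    ∃ b, ((blk R z δ k).run s x r t).2 = k * b + k ∧ k * b + k ≤ t ∧
      ∀ i < k, |⟪x (k * b + i), (s : Eu d) - z b⟫| ≤ δ * ‖x (k * b + i)‖ := by
  induction t with
  | zero => intro h; simp [Rule.run] at h
  | succ t ih =>
    intro h
    by_cases h1 : ((blk R z δ k).run s x r t).1.1 = true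
    · obtain ⟨b, h2, h3, h4⟩ := ih h1
      exact ⟨b, by rw [run_stop s x r _ h1, h2], by omega, h4⟩
    · have h2 : ((blk R z δ k).run s x r t).1.1 = false := by simpa using h1
      have h3 := blk_key z δ k s x r t h2
      rw [blk_go z δ k s x r h2] at h h3 ⊢
      split_ifs at h h3 with h4
      have h5 : t % k + 1 = k := by simpa using h
      have h6 := Nat.div_add_mod t k
      exact ⟨t / k, by simp only; omega, by omega, fun i hi => h3 rfl i (by omega)⟩

theorem blk_complete (b : ℕ)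
    (h : ∀ i < k, |⟪x (k * b + i), (s : Eu d) - z b⟫| ≤ δ * ‖x (k * b + i)‖) (i : ℕ) (hi : i < k) :
    ((blk R z δ k).run s x r (k * b + i + 1)).1.1 = true ∨
      (((blk R z δ k).run s x r (k * b + i + 1)).1.2 = 1 ∧ i + 1 ≠ k) := by
  have h0 : ∀ j < k, (k * b + j) / k = b ∧ (k * b + j) % k = j := fun j hj =>
    ⟨by rw [Nat.mul_add_div (by omega), Nat.div_eq_of_lt hj, add_zero],
      by rw [Nat.mul_add_mod, Nat.mod_eq_of_lt hj]⟩
  have h1 : ∀ j < k, (j = 0 ∨ ((blk R z δ k).run s x r (k * b + j)).1.1 = true ∨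
      ((blk R z δ k).run s x r (k * b + j)).1.2 = 1) →
      ((blk R z δ k).run s x r (k * b + j + 1)).1.1 = true ∨
      (((blk R z δ k).run s x r (k * b + j + 1)).1.2 = 1 ∧ j + 1 ≠ k) := by
    intro j hj h2
    by_cases h3 : ((blk R z δ k).run s x r (k * b + j)).1.1 = true
    · left
      rw [run_stop s x r _ h3]
      exact h3
    · rw [blk_go z δ k s x r (by simpa using h3), (h0 j hj).1, (h0 j hj).2,
        if_pos ⟨by tauto, h j hj⟩]
      by_cases h4 : j + 1 = k <;> simp [h4]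
  induction i with
  | zero => exact h1 0 hi (Or.inl rfl)
  | succ i ih => exact h1 (i + 1) hi (Or.inr ((ih (by omega)).imp id fun h => h.1))

theorem blk_out (hk : 0 < k) {K b₀ : ℕ} (hb : b₀ < K) (h : ‖(s : Eu d) - z b₀‖ ≤ δ) :
    ∃ b < K, (blk R z δ k).estimate (k * K) s x r = z b ∧
      ∀ i < k, |⟪x (k * b + i), (s : Eu d) - z b⟫| ≤ δ * ‖x (k * b + i)‖ := by
  have h1 := (blk_complete z δ k s x r b₀ (fun i _ => by
    rw [mul_comm δ]
    exact (abs_real_inner_le_norm _ _).trans (mul_le_mul_of_nonneg_left h (norm_nonneg _)))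
    (k - 1) (by omega)).resolve_right fun h => h.2 (by omega)
  have h2 : ∀ j, ((blk R z δ k).run s x r (k * b₀ + (k - 1) + 1 + j)).1.1 = true := by
    intro j
    induction j with
    | zero => exact h1
    | succ j ih => rw [← add_assoc, run_stop s x r _ ih]; exact ih
  have h3 : k * b₀ + (k - 1) + 1 ≤ k * K := by
    have := Nat.mul_le_mul_left k (Nat.succ_le_of_lt hb)
    rw [Nat.mul_succ] at this
    omega
  obtain ⟨j, hj⟩ := Nat.exists_eq_add_of_le h3
  have h4 := h2 j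
  rw [← hj] at h4
  obtain ⟨b, h5, h6, h7⟩ := blk_sound z δ k s x r _ h4
  refine ⟨b, ?_, ?_, h7⟩
  · by_contra h8
    have := Nat.mul_le_mul_left k (not_lt.1 h8)
    omega
  · show z ((((blk R z δ k).run s x r (k * K)).2 - 1) / k) = z b
    rw [h5, show k * b + k - 1 = k * b + (k - 1) by omega, Nat.mul_add_div hk,
      Nat.div_eq_of_lt (by omega), add_zero]

end blk

/-- One bit suffices when the output may depend on the stopping index. -/
theorem one_bit (hd : 1 ≤ d) {ε : ℝ} (h0 : 0 < ε) (R : Type u) [MeasurableSpace R] :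
    ∃ (L : Rule d 2 R) (T : ℕ), ∀ (Ω : Type u) [MeasurableSpace Ω] (P : Measure Ω)
      (S : Ω → P309B7.Sph d) (X : ℕ → Ω → Eu d) (U : ℕ → Ω → R), IsShared P S X U →
      2 / 3 ≤ L.success T ε P S X U := by
  classical
  have := Upper.isProb_unifSphere hd
  obtain ⟨e⟩ : Nonempty (P309B7.Sph d) := nonempty_of_isProbabilityMeasure (unifSphere (Eu d))
  obtain ⟨A, hA, hc⟩ := cone_le (d := d)
  set ρ := √(2 - 2 * Real.cos (min ε Real.pi)) with hρ
  have hρ0 : 0 < ρ := by
    rw [hρ, Real.sqrt_pos]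
    have := Real.cos_lt_cos_of_nonneg_of_le_pi le_rfl (min_le_right ε Real.pi)
      (lt_min h0 Real.pi_pos)
    rw [Real.cos_zero] at this
    linarith
  set B : ℝ := 4 * d / ρ + A with hB
  have hB0 : 0 ≤ B := by positivity
  obtain ⟨m, hm⟩ := exists_nat_ge (3 * (3 ^ d * B ^ (2 * d + 1)) + 1)
  have hm1 : (1 : ℝ) ≤ m := le_trans (le_add_of_nonneg_left (by positivity)) hm
  have hm1' : 1 ≤ m := by exact_mod_cast hm1
  obtain ⟨z, hz⟩ := exists_net e hd (n := m ^ 2) (Nat.one_le_pow _ _ hm1')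
  set δ : ℝ := 2 * d / (m ^ 2 : ℕ) with hδ
  set K := (2 * m ^ 2 + 1) ^ d with hK
  set k := 2 * d + 1 with hk
  have hcone : ∀ v : Eu d, ρ ≤ ‖v‖ →
      stdGaussian (Eu d) {y | |⟪y, v⟫| ≤ δ * ‖y‖} ≤ ENNReal.ofReal (B / m) := by
    intro v hv
    refine (hc v ρ δ m hρ0 hv (by positivity) (by linarith)).trans (le_of_eq ?_)
    congr 1
    rw [hδ, hB]
    push_cast
    field_simp
    ring
  have hsmall : (K : ℝ) * (B / m) ^ k ≤ 1 / 3 := by
    have h1 : (K : ℝ) ≤ 3 ^ d * m ^ (2 * d) := by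
      rw [hK, pow_mul, ← mul_pow]
      push_cast
      gcongr
      nlinarith
    have h2 : (3 : ℝ) ^ d * m ^ (2 * d) * (B / m) ^ k = 3 ^ d * B ^ (2 * d + 1) / m := by
      rw [hk, div_pow, pow_succ (m : ℝ)]
      field_simp
    refine (mul_le_mul_of_nonneg_right h1 (by positivity)).trans ?_
    rw [h2, div_le_div_iff₀ (by linarith) (by norm_num)]
    linarith
  refine ⟨blk R z δ k, k * K, fun Ω _ P S X U hE => ?_⟩
  have := hE.prob
  have hU : Measurable fun ω t => U t ω := measurable_pi_lambda _ hE.measU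
  have : IsProbabilityMeasure (P.map fun ω t => U t ω) :=
    Measure.isProbabilityMeasure_map hU.aemeasurable
  rw [success_eq hE]
  refine le_trans (by simp) (lintegral_mono (f := fun _ => 2 / 3) fun r => ?_)
  have hA : MeasurableSet {p : P309B7.Sph d × (ℕ → Eu d) | Real.arccos
      ⟪((blk R z δ k).estimate (k * K) p.1 p.2 r : Eu d), (p.1 : Eu d)⟫ ≤ ε} :=
    measurable_prodMk_right (meas_ev _ _ ε)
  rw [fixed, Measure.prod_apply hA]
  refine le_trans (by simp) (lintegral_mono (f := fun _ => 2 / 3) fun s => ?_)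
  let F : ℕ → Set (ℕ → Eu d) := fun b =>
    {x | ρ ≤ ‖(s : Eu d) - z b‖ ∧ ∀ i < k, |⟪x (k * b + i), (s : Eu d) - z b⟫| ≤ δ * ‖x (k * b + i)‖}
  have hF : ∀ b, (Measure.infinitePi fun _ : ℕ => stdGaussian (Eu d)) (F b) ≤
      ENNReal.ofReal ((B / m) ^ k) := by
    intro b
    by_cases hb : ρ ≤ ‖(s : Eu d) - z b‖
    · have h1 := Measure.infinitePi_pi (μ := fun _ : ℕ => stdGaussian (Eu d))
        (s := Finset.Ico (k * b) (k * b + k))
        (t := fun _ => {y | |⟪y, (s : Eu d) - z b⟫| ≤ δ * ‖y‖})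
        fun _ _ => measurableSet_le (by fun_prop) (by fun_prop)
      rw [Finset.prod_const, Nat.card_Ico, Nat.add_sub_cancel_left] at h1
      refine le_trans (measure_mono ?_) (h1.trans_le ?_)
      · intro x hx t ht
        obtain ⟨h2, h3⟩ := Finset.mem_Ico.1 ht
        obtain ⟨i, rfl⟩ := Nat.exists_eq_add_of_le h2
        exact hx.2 i (by omega)
      · rw [ENNReal.ofReal_pow (by positivity)]
        gcongr
        exact hcone _ hb
    · rw [Set.eq_empty_of_forall_notMem (s := F b) fun x hx => hb hx.1, measure_empty]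
      exact zero_le
  have h1 : (Prod.mk s ⁻¹' {p : P309B7.Sph d × (ℕ → Eu d) | Real.arccos
      ⟪((blk R z δ k).estimate (k * K) p.1 p.2 r : Eu d), (p.1 : Eu d)⟫ ≤ ε})ᶜ ⊆
      ⋃ b ∈ Finset.range K, F b := by
    intro x hx
    obtain ⟨b₀, h2, h3⟩ := hz s
    obtain ⟨b, h4, h5, h6⟩ := blk_out z δ k s x r (by omega) h2 h3
    refine Set.mem_biUnion (Finset.mem_coe.2 (Finset.mem_range.2 h4)) ⟨?_, h6⟩
    by_contra h7
    refine hx ?_
    show Real.arccos ⟪((blk R z δ k).estimate (k * K) s x r : Eu d), (s : Eu d)⟫ ≤ ε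
    rw [h5, cap_iff h0.le]
    exact (not_le.1 h7).le
  have h2 := (measure_mono (μ := Measure.infinitePi fun _ : ℕ => stdGaussian (Eu d)) h1).trans
    ((measure_biUnion_finset_le _ _).trans (Finset.sum_le_sum fun b _ => hF b))
  rw [Finset.sum_const, Finset.card_range, nsmul_eq_mul, ← ENNReal.ofReal_natCast,
    ← ENNReal.ofReal_mul (Nat.cast_nonneg _), prob_compl_eq_one_sub (measurable_prodMk_left hA),
    tsub_le_iff_tsub_le] at h2
  refine le_trans ?_ h2
  rw [two_thirds, ← ENNReal.ofReal_one, ← ENNReal.ofReal_sub _ (by positivity)]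
  exact ENNReal.ofReal_le_ofReal (by linarith)

end Vale.Agent.N309
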