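import Vale.Agent.N309.Defs
import Vale.Agent.N309.OneBit

/-! # P309: the threshold in terms of `cover` -/

namespace Vale.Agent.N309

open Vale.Agent.P309B7 Vale.Agent.P309C9
open scoped RealInnerProductSpace

theorem thr {d M : ℕ} {ε : ℝ} (e : Sph d) (hd : 1 ≤ d) (h0 : 0 ≤ ε) :
    (2 ^ M * cover (fun _ : Fin 1 => e) ε < 2 / 3 → leastT d M ε = ⊤) ∧
    (ENNReal.ofReal (Real.log 3) ≤ 2 ^ M * cover (fun _ : Fin 1 => e) ε → leastT d M ε < ⊤) ∧
    (2 / 3 ≤ 2 ^ M * cover (fun _ : Fin 1 => e) ε → leastT d (M + 1) ε < ⊤) := by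
  have h : cover (fun _ : Fin 1 => e) ε =
      P309.unifSphere (Eu d) {s | Real.arccos ⟪(e : Eu d), (s : Eu d)⟫ ≤ ε} := by
    simp only [cover, exists_const]
  rw [h]
  exact ⟨thr_top e, thr_fin hd e h0, thr_succ hd e h0⟩

end Vale.Agent.N309
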