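import Vale.Agent.N309.Cycle

/-!
# P309: the threshold between finite and infinite horizon; Euclidean error
-/

namespace Vale.Agent.N309

open MeasureTheory ProbabilityTheory P309 Vale.Agent.P309B7 Vale.Agent.P309C9 Filter Topology
open scoped ENNReal RealInnerProductSpace

universe u

variable {d N : ℕ} {R Ω : Type u} [MeasurableSpace R] [MeasurableSpace Ω]
  {P : Measure Ω} {S : Ω → P309B7.Sph d} {X : ℕ → Ω → Eu d} {U : ℕ → Ω → R}

theorem success_eq (hE : IsShared P S X U) (L : Rule d N R) (T : ℕ) (ε : ℝ) :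
    L.success T ε P S X U = ∫⁻ r, fixed L T ε r ∂P.map fun ω t => U t ω := by
  have := hE.prob
  have hX : Measurable fun ω t => X t ω := measurable_pi_lambda _ hE.measX
  have hU : Measurable fun ω t => U t ω := measurable_pi_lambda _ hE.measU
  have : IsProbabilityMeasure (P.map fun ω t => U t ω) :=
    Measure.isProbabilityMeasure_map hU.aemeasurable
  have : IsProbabilityMeasure (unifSphere (Eu d)) :=
    hE.lawS ▸ Measure.isProbabilityMeasure_map hE.measS.aemeasurable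
  have law : P.map (fun ω => ((S ω, fun t => X t ω), fun t => U t ω)) =
      ((unifSphere (Eu d)).prod (Measure.infinitePi fun _ : ℕ => stdGaussian (Eu d))).prod
        (P.map fun ω t => U t ω) := by
    rw [hE.indSXU.map_prod_eq_prod_map_map (hE.measS.prodMk hX).aemeasurable hU.aemeasurable,
      hE.indSX.map_prod_eq_prod_map_map hE.measS.aemeasurable hX.aemeasurable, hE.lawS,
      hE.indX.map_fun_eq_infinitePi_map hE.measX]
    simp only [hE.lawX]
  have h1 := Measure.map_apply (μ := P) ((hE.measS.prodMk hX).prodMk hU) (meas_ev L T ε)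
  rw [law, Measure.prod_apply_symm (meas_ev L T ε)] at h1
  exact h1.symm

theorem cyc_run_congr {n : ℕ} (c : Fin (n + 1) → P309B7.Sph d) (ρ : ℝ) (s : P309B7.Sph d)
    (x : ℕ → Eu d) (r r' : ℕ → R) (t : ℕ) :
    ((cyc R c ρ).run s x r t).1.2 = ((cyc R c ρ).run s x r' t).1.2 := by
  induction t with
  | zero => rfl
  | succ t ih => rw [cyc_step, cyc_step, ih]

/-- (b) the measure of every union of `N` caps is approached by a learner with `N` states -/
theorem attain (hd : 1 ≤ d) (hN : 1 ≤ N) (c : Fin N → P309B7.Sph d) {ε : ℝ} (h0 : 0 ≤ ε)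
    (R : Type u) [MeasurableSpace R] :
    ∃ L : Rule d N R, (∀ t, L.out t = L.out 0) ∧
      ∀ (Ω : Type u) [MeasurableSpace Ω] (P : Measure Ω) (S : Ω → P309B7.Sph d)
        (X : ℕ → Ω → Eu d) (U : ℕ → Ω → R), IsShared P S X U →
        Tendsto (fun T => L.success T ε P S X U) atTop
          (𝓝 (unifSphere (Eu d) {s | ∃ i, Real.arccos ⟪(c i : Eu d), (s : Eu d)⟫ ≤ ε})) := by
  obtain ⟨n, rfl⟩ : ∃ n, N = n + 1 := ⟨N - 1, by omega⟩
  refine ⟨cyc R c √(2 - 2 * Real.cos (min ε Real.pi)), fun _ => rfl, fun Ω _ P S X U hE => ?_⟩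
  have := hE.prob
  have hU : Measurable fun ω t => U t ω := measurable_pi_lambda _ hE.measU
  have : IsProbabilityMeasure (P.map fun ω t => U t ω) :=
    Measure.isProbabilityMeasure_map hU.aemeasurable
  obtain ⟨ω⟩ : Nonempty Ω := nonempty_of_isProbabilityMeasure P
  refine (cyc_fixed hd c h0 (fun t => U t ω)).congr fun T => ?_
  rw [success_eq hE]
  have h1 : ∀ r : ℕ → R, fixed (cyc R c √(2 - 2 * Real.cos (min ε Real.pi))) T ε r =
      fixed (cyc R c √(2 - 2 * Real.cos (min ε Real.pi))) T ε (fun t => U t ω) := by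
    intro r
    unfold fixed
    congr 1
    ext p
    show Real.arccos ⟪(c _ : Eu d), _⟫ ≤ ε ↔ Real.arccos ⟪(c _ : Eu d), _⟫ ≤ ε
    rw [cyc_run_congr c _ p.1 p.2 r (fun t => U t ω)]
  simp only [h1, lintegral_const, measure_univ, mul_one]

/-- (a) the success probability is at most the measure of a union of `N` caps -/
theorem upper (hE : IsShared P S X U) (L : Rule d N R) (hL : ∀ t, L.out t = L.out 0) (T : ℕ)
    (ε : ℝ) : ∃ c : Fin N → P309B7.Sph d, L.success T ε P S X U ≤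
      unifSphere (Eu d) {s | ∃ i, Real.arccos ⟪(c i : Eu d), (s : Eu d)⟫ ≤ ε} := by
  obtain ⟨r, hr⟩ := hE.exists_fixed L T ε
  refine ⟨fun i => L.out 0 (r 1, i), hr.trans ?_⟩
  have h1 : {p : P309B7.Sph d × (ℕ → Eu d) |
      Real.arccos ⟪(L.estimate T p.1 p.2 r : Eu d), (p.1 : Eu d)⟫ ≤ ε} ⊆
      {s : P309B7.Sph d | ∃ i, Real.arccos ⟪(L.out 0 (r 1, i) : Eu d), (s : Eu d)⟫ ≤ ε} ×ˢ
        Set.univ := by
    intro p hp
    refine ⟨⟨(L.run p.1 p.2 r T).1.2, ?_⟩, Set.mem_univ _⟩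
    rw [← hL (L.run p.1 p.2 r T).2]
    exact hp
  refine (measure_mono h1).trans ?_
  rw [Measure.prod_prod, measure_univ, mul_one]

theorem cap_eq (e s : P309B7.Sph d) (ε : ℝ) :
    unifSphere (Eu d) {z | Real.arccos ⟪(s : Eu d), (z : Eu d)⟫ ≤ ε} =
      unifSphere (Eu d) {z | Real.arccos ⟪(e : Eu d), (z : Eu d)⟫ ≤ ε} := by
  have h : ‖(s : Eu d)‖ = ‖(e : Eu d)‖ := by rw [nrm, nrm]
  have hm : MeasurableSet {z : P309B7.Sph d | Real.arccos ⟪(e : Eu d), (z : Eu d)⟫ ≤ ε} :=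
    measurable_prodMk_left (x := e) (meas_good ε)
  rw [← (mp_sphMap (ℝ ∙ ((s : Eu d) - e))ᗮ.reflection).measure_preimage hm.nullMeasurableSet]
  congr 1
  ext z
  change _ ↔ Real.arccos ⟪(e : Eu d), (ℝ ∙ ((s : Eu d) - e))ᗮ.reflection (z : Eu d)⟫ ≤ ε
  have h1 := (ℝ ∙ ((s : Eu d) - e))ᗮ.reflection.inner_map_map (s : Eu d) (z : Eu d)
  rw [Submodule.reflection_sub h] at h1
  rw [h1]
  rfl

theorem cover_le (e : P309B7.Sph d) (c : Fin N → P309B7.Sph d) (ε : ℝ) :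
    unifSphere (Eu d) {s | ∃ i, Real.arccos ⟪(c i : Eu d), (s : Eu d)⟫ ≤ ε} ≤
      N * unifSphere (Eu d) {z | Real.arccos ⟪(e : Eu d), (z : Eu d)⟫ ≤ ε} := by
  rw [Set.ofPred_exists]
  refine (measure_iUnion_fintype_le _ _).trans ?_
  simp only [cap_eq e, Finset.sum_const, Finset.card_univ, Fintype.card_fin, nsmul_eq_mul, le_refl]

/-- greedy covering -/
theorem greedy (hd : 1 ≤ d) (e : P309B7.Sph d) (ε : ℝ) (n : ℕ) :
    ∃ c : Fin n → P309B7.Sph d,
      unifSphere (Eu d) {s | ∃ i, Real.arccos ⟪(c i : Eu d), (s : Eu d)⟫ ≤ ε}ᶜ ≤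
      (1 - unifSphere (Eu d) {z | Real.arccos ⟪(e : Eu d), (z : Eu d)⟫ ≤ ε}) ^ n := by
  have := Upper.isProb_unifSphere hd
  induction n with
  | zero => exact ⟨fun i => i.elim0, by rw [pow_zero]; exact prob_le_one⟩
  | succ n ih =>
    obtain ⟨c, hc⟩ := ih
    set A := {s : P309B7.Sph d | ∃ i, Real.arccos ⟪(c i : Eu d), (s : Eu d)⟫ ≤ ε}ᶜ with hA
    have hAm : MeasurableSet A := (meas_cover c ε).compl
    let B : Set (P309B7.Sph d × P309B7.Sph d) :=
      {p | Real.arccos ⟪(p.1 : Eu d), (p.2 : Eu d)⟫ ≤ ε}ᶜ ∩ Prod.snd ⁻¹' A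
    have hB : MeasurableSet B := (meas_good ε).compl.inter (measurable_snd hAm)
    have h1 := Measure.prod_apply (μ := unifSphere (Eu d)) (ν := unifSphere (Eu d)) hB
    rw [Measure.prod_apply_symm hB] at h1
    have h2 : ∀ s : P309B7.Sph d, unifSphere (Eu d) ((fun z => (z, s)) ⁻¹' B) =
        A.indicator (fun _ => 1 - unifSphere (Eu d)
          {z | Real.arccos ⟪(e : Eu d), (z : Eu d)⟫ ≤ ε}) s := by
      intro s
      by_cases hs : s ∈ A
      · have hm : MeasurableSet {z : P309B7.Sph d | Real.arccos ⟪(s : Eu d), (z : Eu d)⟫ ≤ ε} :=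
          measurable_prodMk_left (x := s) (meas_good ε)
        rw [Set.indicator_of_mem hs, ← cap_eq e s, ← prob_compl_eq_one_sub hm]
        congr 1
        ext z
        simp [B, hs, real_inner_comm]
      · rw [Set.indicator_of_notMem hs]
        convert measure_empty (μ := unifSphere (Eu d))
        ext z
        simp [B, hs]
    simp only [h2] at h1
    rw [lintegral_indicator_const hAm] at h1
    obtain ⟨z, hz⟩ := exists_le_lintegral (μ := unifSphere (Eu d))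
      (f := fun z => unifSphere (Eu d) (Prod.mk z ⁻¹' B))
      (measurable_measure_prodMk_left hB).aemeasurable
    refine ⟨Fin.cons z c, ?_⟩
    rw [← h1] at hz
    refine le_trans (le_of_eq ?_) (hz.trans ?_)
    · congr 1
      ext s
      simp [B, hA, Fin.exists_fin_succ]
    · rw [pow_succ']
      gcongr

theorem two_thirds : (2 / 3 : ℝ≥0∞) = ENNReal.ofReal (2 / 3) := by
  rw [ENNReal.ofReal_div_of_pos (by norm_num)]
  norm_num

theorem leastT_lt_top (hd : 1 ≤ d) {M : ℕ} {ε : ℝ} (h0 : 0 ≤ ε) (c : Fin (2 ^ M) → P309B7.Sph d)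
    (h : 2 / 3 < unifSphere (Eu d) {s | ∃ i, Real.arccos ⟪(c i : Eu d), (s : Eu d)⟫ ≤ ε}) :
    leastT d M ε < ⊤ := by
  obtain ⟨L, h1, h2⟩ := attain hd Nat.one_le_two_pow c h0 unitInterval
  obtain ⟨Ω, _, P, S, X, U, hE, -⟩ := exists_experiment hd
  obtain ⟨T, hT⟩ := ((h2 Ω P S X U (of_exp hE)).eventually (lt_mem_nhds h)).exists
  refine lt_of_le_of_lt ?_ (ENat.natCast_lt_top T)
  exact iInf₂_le T ⟨_, unitInterval, Ω, _, _, L, P, S, X, U, le_rfl, h1, of_exp hE, hT.le⟩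

theorem leastT_eq_top {M : ℕ} {ε : ℝ} (h : ∀ c : Fin (2 ^ M) → P309B7.Sph d,
    unifSphere (Eu d) {s | ∃ i, Real.arccos ⟪(c i : Eu d), (s : Eu d)⟫ ≤ ε} < 2 / 3) :
    leastT d M ε = ⊤ := by
  refine iInf₂_eq_top.2 ?_
  rintro T ⟨N, R, Ω, _, _, L, P, S, X, U, hN, hL, hE, hs⟩
  exfalso
  obtain ⟨c, hc⟩ := upper hE L hL T ε
  have := hE.prob
  obtain ⟨ω⟩ : Nonempty Ω := nonempty_of_isProbabilityMeasure P
  have : Nonempty (Fin N) := ⟨L.init (U 0 ω)⟩
  obtain ⟨ρ, hρ⟩ := (Fin.castLE_injective hN).hasLeftInverse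
  refine absurd (h (c ∘ ρ)) (not_lt.2 (hs.trans (hc.trans (measure_mono ?_))))
  rintro s ⟨i, hi⟩
  exact ⟨Fin.castLE hN i, by rw [Function.comp_apply, hρ i]; exact hi⟩

theorem thr_top (e : P309B7.Sph d) {M : ℕ} {ε : ℝ}
    (h : 2 ^ M * unifSphere (Eu d) {z | Real.arccos ⟪(e : Eu d), (z : Eu d)⟫ ≤ ε} < 2 / 3) :
    leastT d M ε = ⊤ :=
  leastT_eq_top fun c => (cover_le e c ε).trans_lt (by exact_mod_cast h)

theorem thr_fin (hd : 1 ≤ d) (e : P309B7.Sph d) {M : ℕ} {ε : ℝ} (h0 : 0 ≤ ε)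
    (h : ENNReal.ofReal (Real.log 3) ≤
      2 ^ M * unifSphere (Eu d) {z | Real.arccos ⟪(e : Eu d), (z : Eu d)⟫ ≤ ε}) :
    leastT d M ε < ⊤ := by
  have := Upper.isProb_unifSphere hd
  obtain ⟨c, hc⟩ := greedy hd e ε (2 ^ M)
  refine leastT_lt_top hd h0 c ?_
  set μ := unifSphere (Eu d) {z | Real.arccos ⟪(e : Eu d), (z : Eu d)⟫ ≤ ε} with hμ
  have hμ1 : μ ≤ 1 := prob_le_one
  have hμt : μ ≠ ∞ := measure_ne_top _ _
  obtain ⟨m, hm⟩ : ∃ m : ℝ, 0 ≤ m ∧ μ = ENNReal.ofReal m :=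
    ⟨μ.toReal, ENNReal.toReal_nonneg, (ENNReal.ofReal_toReal hμt).symm⟩
  rw [hm.2] at h hc hμ1
  have hm1 : m ≤ 1 := by simpa using hμ1
  have h1 : Real.log 3 ≤ 2 ^ M * m := by
    rw [show (2 ^ M : ℝ≥0∞) = ENNReal.ofReal (2 ^ M) by
      rw [ENNReal.ofReal_pow (by norm_num)]; norm_num, ← ENNReal.ofReal_mul (by positivity),
      ENNReal.ofReal_le_ofReal_iff (mul_nonneg (by positivity) hm.1)] at h
    exact h
  have h3 : 0 < Real.log 3 := Real.log_pos (by norm_num)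
  have hm0 : m ≠ 0 := by
    rintro rfl
    linarith
  have h2 : (1 - m) ^ (2 ^ M) < 1 / 3 := by
    have h4 : 1 - m < Real.exp (-m) := by
      have := Real.add_one_lt_exp (neg_ne_zero.2 hm0)
      linarith
    calc (1 - m) ^ (2 ^ M) < Real.exp (-m) ^ (2 ^ M) :=
          pow_lt_pow_left₀ h4 (by linarith) (by positivity)
      _ = Real.exp (-(2 ^ M * m)) := by
          rw [← Real.exp_nat_mul]; congr 1; push_cast; ring
      _ ≤ Real.exp (-Real.log 3) := Real.exp_le_exp.2 (by linarith)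
      _ = 1 / 3 := by rw [Real.exp_neg, Real.exp_log (by norm_num)]; norm_num
  rw [← ENNReal.ofReal_one, ← ENNReal.ofReal_sub _ hm.1, ← ENNReal.ofReal_pow (by linarith),
    prob_compl_eq_one_sub (meas_cover c ε)] at hc
  by_contra hlt
  rw [not_lt, two_thirds] at hlt
  have h5 : (1 : ℝ≥0∞) ≤ ENNReal.ofReal ((1 - m) ^ (2 ^ M)) + ENNReal.ofReal (2 / 3) :=
    (tsub_le_iff_right.1 hc).trans (by gcongr)
  rw [← ENNReal.ofReal_add (pow_nonneg (by linarith) _) (by norm_num), ENNReal.one_le_ofReal] at h5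
  linarith

theorem thr_succ (hd : 1 ≤ d) (e : P309B7.Sph d) {M : ℕ} {ε : ℝ} (h0 : 0 ≤ ε)
    (h : 2 / 3 ≤ 2 ^ M * unifSphere (Eu d) {z | Real.arccos ⟪(e : Eu d), (z : Eu d)⟫ ≤ ε}) :
    leastT d (M + 1) ε < ⊤ := by
  refine thr_fin hd e h0 ?_
  rw [pow_succ', mul_assoc]
  refine le_trans ?_ (mul_le_mul_right h 2)
  rw [two_thirds, ← ENNReal.ofReal_ofNat 2, ← ENNReal.ofReal_mul (by norm_num)]
  refine ENNReal.ofReal_le_ofReal ?_
  rw [Real.log_le_iff_le_exp (by norm_num)]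
  have h1 := Real.exp_one_gt_d9
  have h2 := Real.add_one_le_exp (1 / 3 : ℝ)
  rw [show (2 : ℝ) * (2 / 3) = 1 + 1 / 3 by norm_num, Real.exp_add]
  nlinarith

theorem angle_le {ε : ℝ} (h0 : 0 ≤ ε) (h1 : ε ≤ 1 / 4) (z s : P309B7.Sph d)
    (h : ‖(z : Eu d) - s‖ ≤ ε) : Real.arccos ⟪(z : Eu d), (s : Eu d)⟫ ≤ 2 * ε := by
  have hπ := Real.pi_gt_three
  have hπ' := Real.pi_lt_four
  rw [cap_iff (by linarith), min_eq_left (by linarith), norm_sub_rev]
  refine h.trans (Real.le_sqrt_of_sq_le ?_)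
  have h2 := Real.cos_le_one_sub_mul_cos_sq (x := 2 * ε) (by rw [abs_of_nonneg] <;> linarith)
  have h3 : 1 / 8 ≤ 2 / Real.pi ^ 2 := by
    rw [le_div_iff₀ (by positivity)]
    nlinarith
  nlinarith [sq_nonneg ε]

/-- Q1, for angular and for Euclidean error. -/
theorem lower (c : ℝ) (hc : 0 < c) : ∃ c' : ℝ, 0 < c' ∧ ∃ d₀ : ℕ, ∀ d : ℕ, d₀ ≤ d →
    ∀ ε : ℝ, 0 < ε → ε ≤ 1 / 4 → ∀ M : ℕ, (M : ℝ) ≤ c * (d : ℝ) ^ 2 →
      ∀ (T N : ℕ) (R Ω : Type u) [MeasurableSpace R] [MeasurableSpace Ω] (L : Rule d N R)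
        (P : Measure Ω) (S : Ω → P309B7.Sph d) (X : ℕ → Ω → Eu d) (U : ℕ → Ω → R),
        N ≤ 2 ^ M → IsShared P S X U →
        (2 / 3 ≤ L.success T ε P S X U → c' * d * Real.log (1 / ε) ≤ T) ∧
        (2 / 3 ≤ P {ω | ‖(L.estimate T (S ω) (fun t => X t ω) (fun t => U t ω) : Eu d) - S ω‖ ≤ ε} →
          c' * d * Real.log (1 / ε) ≤ T) := by
  obtain ⟨C, -, h⟩ := P309C9.main.{u}
  obtain ⟨c', hc', d₀, ε₀, -, h⟩ := h c hc
  refine ⟨c' / 2, by positivity, d₀, fun d hd ε h0 h1 M hM T N R Ω _ _ L P S X U hN hE => ?_⟩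
  have hΛ : 0 ≤ Real.log (1 / ε) := by
    apply Real.log_nonneg
    rw [le_div_iff₀ h0]; linarith
  have hd0 : (0 : ℝ) ≤ d := Nat.cast_nonneg d
  refine ⟨fun hs => le_trans ?_
    (((h d hd ε h0 (by linarith) M hM).1 T N R Ω L P S X U hN hE).1 hs), fun hs => le_trans ?_
    (((h d hd (2 * ε) (by linarith) (by linarith) M hM).1 T N R Ω L P S X U hN hE).1
      (hs.trans (measure_mono fun ω hω => angle_le h0.le h1 _ _ hω)))⟩
  · have : 0 ≤ c' * d * Real.log (1 / ε) := by positivity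
    linarith
  · have h2 : Real.log (1 / ε) ≤ 2 * Real.log (1 / (2 * ε)) := by
      rw [← Real.log_rpow (by positivity)]
      refine Real.log_le_log (by positivity) ?_
      rw [Real.rpow_two, div_pow, div_le_div_iff₀ h0 (by positivity)]
      nlinarith
    have h3 : 0 ≤ c' * d := by positivity
    nlinarith

end Vale.Agent.N309
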